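import Vale.Agent.P297.H839.Fam
import Vale.Agent.P297.H839.Points

open CategoryTheory AlgebraicGeometry IntermediateField Vale.Agent.P297 Vale.Agent.P297.H839

namespace Vale.Agent.Results.P297.GaloisTwins

theorem result :
    -- (1) the first family
    (∀ (κ c : ℂ), κ ≠ -1 → κ ≠ c → ∀ (N : Type) [Field N] [Algebra ℂ N] (s t z w : N),
      AlgebraicIndependent ℂ ![s, t] → z ^ 2 = gg c s * Phi κ s t → w ^ 2 = gg c t * Phi κ s t →
      PointsEquivalent (IntermediateField.adjoin ℂ {s + t, s * t, z + w, z * w})) ∧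
    -- (2) the second family
    (∀ (l n : ℂ), l ≠ 1 → l ≠ -1 → (1 + l) * n + 1 ≠ 0 →
      ∀ (N : Type) [Field N] [Algebra ℂ N] (s t z w : N),
      AlgebraicIndependent ℂ ![s, t] → z ^ 2 = AA l n s t → w ^ 2 = AA l n t s →
      PointsEquivalent (IntermediateField.adjoin ℂ {s + t, s * t, z + w, z * w})) ∧
    -- (3) Galois twins
    (∀ (B N : Type) [Field B] [Algebra ℂ B] [Field N] [Algebra ℂ N] (β : B →ₐ[ℂ] N)
      (σ : B ≃ₐ[ℂ] B) (b : B) (z w : N), (∀ c, σ (σ c) = c) → z ^ 2 = β b → w ^ 2 = β (σ b) →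
      IsRational (β.fieldRange ⊔ IntermediateField.adjoin ℂ {z}) →
      IsRational ((IntermediateField.fixedField (Subgroup.zpowers σ)).map β ⊔
        IntermediateField.adjoin ℂ {z * w}) →
      PointsEquivalent ((IntermediateField.fixedField (Subgroup.zpowers σ)).map β ⊔
        IntermediateField.adjoin ℂ {z + w} : IntermediateField ℂ N)) ∧
    -- (4) the criterion
    (∀ (K N : Type) [Field K] [Algebra ℂ K] [Field N] [Algebra ℂ N] [Algebra K N]
      [IsScalarTower ℂ K N] [Algebra.IsAlgebraic K N] (n : ℤ),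
      Finsupp.single (IsScalarTower.toAlgHom ℂ K N) n ∈ orbitRelations K N →
      (∀ (S : Scheme.{0}) [IsIntegral S] (f : S ⟶ Spec (.of ℂ)) [IsProper f],
        IsFunctionFieldOf f K → ∀ x y : ClosedPt S,
          n • (Finsupp.single x (1 : ℤ) - Finsupp.single y 1) ∈ Rat f) ∧
      ∀ k : ℕ, n = 2 ^ k → IsDouble K → PointsEquivalent K) := by
  refine ⟨?_, ?_, ?_, ?_⟩
  · intro κ c hκ hκc N _ _ s t z w hst hz hw S _ f _ hS x y
    exact dihedral_one hκ hκc hst hz hw f hS x y
  · intro l n h1 h2 h3 N _ _ s t z w hst hz hw S _ f _ hS x y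
    exact second_family h1 h2 h3 hst hz hw f hS x y
  · intro B N _ _ _ _ β σ b z w hσ hz hw h1 h2 S _ f _ hS x y
    exact twins β σ hσ b z w hz hw h1 h2 f hS x y
  · intro K N _ _ _ _ _ _ _ n hn
    refine ⟨fun S _ f _ hS x y => criterion n hn f hS x y, ?_⟩
    rintro k rfl hK S _ f _ hS x y
    exact criterion_one hK k hn f hS x y

end Vale.Agent.Results.P297.GaloisTwins
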