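import Vale.Agent.P297.H839.Fam
import Vale.Agent.P297.H109.Sym
import Vale.Agent.P297.H109.Conic
import Vale.Agent.P297.H109.TwinDefs

open CategoryTheory AlgebraicGeometry IntermediateField Vale.Agent.P297 Vale.Agent.P297.H839
  Vale.Agent.P297.H109

namespace Vale.Agent.Results.P297.ThreeFamilies

theorem result :
    -- (1) the first family
    (∀ κ c : ℂ, κ ≠ -1 → κ ≠ c → TwinFamily (fun _ _ _ s t => gg c s * Phi κ s t)) ∧
    -- (2) the second family
    (∀ l n : ℂ, l ≠ 1 → l ≠ -1 → (1 + l) * n + 1 ≠ 0 →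
      TwinFamily (fun _ _ _ s t => AA l n s t)) ∧
    -- (3) the third family
    (∀ κ c : ℂ, κ ≠ 0 → κ ≠ 1 → κ ≠ -1 → κ ≠ c → c ≠ 1 →
      TwinFamily (fun _ _ _ s t => gg c s * (ROne κ s t * RTwo κ s t))) ∧
    -- (4) every symmetric function
    (∀ (c : ℂ) (N : Type) [Field N] [Algebra ℂ N] (s t φ z w : N),
      AlgebraicIndependent ℂ ![s, t] → φ ∈ IntermediateField.adjoin ℂ {s + t, s * t} → φ ≠ 0 →
      z ^ 2 = gg c s * φ → w ^ 2 = gg c t * φ → IsRational (IntermediateField.adjoin ℂ {s, t, z}) →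
      PointsEquivalent (IntermediateField.adjoin ℂ {s + t, s * t, z + w, z * w})) ∧
    -- (5) Galois twins
    TwinPrinciple (fun _ _ _ F y => IsRational (F ⊔ IntermediateField.adjoin ℂ {y})) ∧
    -- (6) Galois twins of conic type
    TwinPrinciple (fun _ _ _ F y => IsConicType F y) ∧
    -- (7) the criterion
    (∀ (K N : Type) [Field K] [Algebra ℂ K] [Field N] [Algebra ℂ N] [Algebra K N]
      [IsScalarTower ℂ K N] [Algebra.IsAlgebraic K N] (n : ℤ),
      Finsupp.single (IsScalarTower.toAlgHom ℂ K N) n ∈ orbitRelations K N →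
      (∀ (S : Scheme.{0}) [IsIntegral S] (f : S ⟶ Spec (.of ℂ)) [IsProper f],
        IsFunctionFieldOf f K → ∀ x y : ClosedPt S,
          n • (Finsupp.single x (1 : ℤ) - Finsupp.single y 1) ∈ Rat f) ∧
      ∀ k : ℕ, n = 2 ^ k → IsDouble K → PointsEquivalent K) := by
  refine ⟨?_, ?_, ?_, ?_, ?_, ?_, ?_⟩
  · intro κ c hκ hκc N _ _ s t z w hst hz hw S _ f _ hS x y
    have hw' : w ^ 2 = gg c t * Phi κ s t := by
      have h : Phi κ s t = Phi κ t s := by unfold Phi; ring
      rw [h]
      exact hw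
    exact dihedral_one hκ hκc hst hz hw' f hS x y
  · intro l n h1 h2 h3 N _ _ s t z w hst hz hw S _ f _ hS x y
    exact second_family h1 h2 h3 hst hz hw f hS x y
  · intro κ c h0 h1 h2 h3 h4 N _ _ s t z w hst hz hw
    have hw' : w ^ 2 = gg c t * (ROne κ s t * RTwo κ s t) := by
      have h : ROne κ s t * RTwo κ s t = ROne κ t s * RTwo κ t s := by unfold ROne RTwo; ring
      rw [h]
      exact hw
    refine camp_family h0 ?_ h3 h4 hst hz hw'
    intro h
    have h5 : (κ - 1) * (κ + 1) = 0 := by linear_combination h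
    rcases mul_eq_zero.1 h5 with h6 | h6
    · exact h1 (sub_eq_zero.1 h6)
    · exact h2 (eq_neg_of_add_eq_zero_left h6)
  · intro c N _ _ s t φ z w hst hφ hφ0 hz hw h
    refine sym_family c hst hφ hφ0 hz hw ?_
    rw [← IntermediateField.adjoin_union]
    have h5 : ({s, t} ∪ {z} : Set N) = {s, t, z} := by
      ext a
      simp only [Set.mem_union, Set.mem_insert_iff, Set.mem_singleton_iff, or_assoc]
    rw [h5]
    exact h
  · intro B N _ _ _ _ β σ b z w hσ hz hw h1 h2 S _ f _ hS x y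
    exact twins β σ hσ b z w hz hw h1 h2 f hS x y
  · intro B N _ _ _ _ β σ b z w hσ hz hw h1 h2
    exact conic_twins β σ hσ b z w hz hw h1 h2
  · intro K N _ _ _ _ _ _ _ n hn
    refine ⟨fun S _ f _ hS x y => criterion n hn f hS x y, ?_⟩
    rintro k rfl hK S _ f _ hS x y
    exact criterion_one hK k hn f hS x y

end Vale.Agent.Results.P297.ThreeFamilies
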